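import Vale.Agent.P063.MathlibUsed

set_option autoImplicit false

namespace Vale.Agent.P063

/-- The `r`-element subsets of `[n]`. -/
abbrev Edge (n r : ℕ) := {e : Finset (Fin n) // e.card = r}

/-- The image of an `r`-element subset under a permutation of `[n]`. -/
def permEdge {n r : ℕ} (s : Equiv.Perm (Fin n)) (e : Edge n r) : Edge n r :=
  ⟨e.1.map s.toEmbedding, by rw [Finset.card_map]; exact e.2⟩

end Vale.Agent.P063
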