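import Vale.Agent.P063.Stmt

set_option autoImplicit false

namespace Vale.Agent.P063

/-- `P` is a nontrivial increasing `r`-uniform hypergraph property on the vertex set `[n]`. -/
def Admissible {n r : ℕ} (P : Set (Edge n r → Bool)) : Prop :=
  IsProperty P ∧ IsUpperSet P ∧ P.Nonempty ∧ P ≠ Set.univ

/-- `W_ε(n)`: the supremum (a maximum over a finite nonempty set, for `n ≥ r`) of the threshold
widths `w_ε(P)` of the nontrivial increasing `r`-uniform hypergraph properties on `[n]`. -/
noncomputable def maxWidth (r : ℕ) (ε : ℝ) (n : ℕ) : ℝ :=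
  sSup {w : ℝ | ∃ P : Set (Edge n r → Bool), Admissible P ∧ width ε P = w}

end Vale.Agent.P063
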