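import Vale.Agent.P063.Defs

set_option autoImplicit false

namespace Vale.Agent.P063

/-- An `r`-uniform hypergraph on `[n]` is a point `x` of `{0,1}^E`, `E = Edge n r`. A family `P`
of such hypergraphs is a hypergraph property when it is invariant under all permutations of the
vertex set `[n]`. -/
def IsProperty {n r : ℕ} (P : Set (Edge n r → Bool)) : Prop :=
  ∀ (s : Equiv.Perm (Fin n)) (x : Edge n r → Bool), (fun e => x (permEdge s e)) ∈ P ↔ x ∈ P

open Classical in
/-- `mu p P`: the probability that the random hypergraph, each edge of which is present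
independently with probability `p`, lies in `P`. -/
noncomputable def mu {n r : ℕ} (p : ℝ) (P : Set (Edge n r → Bool)) : ℝ :=
  ∑ x : Edge n r → Bool, if x ∈ P then ∏ e, (if x e then p else 1 - p) else 0

/-- `p_a(P) = inf {p ∈ [0,1] : mu_p(P) ≥ a}`. -/
noncomputable def critProb {n r : ℕ} (a : ℝ) (P : Set (Edge n r → Bool)) : ℝ :=
  sInf {p : ℝ | 0 ≤ p ∧ p ≤ 1 ∧ a ≤ mu p P}

/-- The threshold width `w_ε(P) = p_{1-ε}(P) - p_ε(P)`. -/
noncomputable def width {n r : ℕ} (ε : ℝ) (P : Set (Edge n r → Bool)) : ℝ :=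
  critProb (1 - ε) P - critProb ε P

end Vale.Agent.P063
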